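import Vale.Agent.P039.Bn.Defs
import Mathlib.LinearAlgebra.Matrix.Rank
import Mathlib.LinearAlgebra.Dimension.Constructions
import Mathlib.Data.Rat.Cast.Defs

/-! Rational 1-chains of the incidence graph J of the corners of a plane Eulerian triangulation:
every 1-cycle is the boundary of a function on the white triangles. -/

namespace Vale.Agent.P039.Bn.H265

open Vale.Agent.P039.Bn Matrix

theorem finrank_ker_le_one {ι κ : Type*} [Fintype ι] [Fintype κ]
    (M : Matrix κ ι ℚ) (h : ∀ z : ι → ℚ, M.mulVec z = 0 → ∀ f g, z f = z g) :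
    Module.finrank ℚ (LinearMap.ker M.mulVecLin) ≤ 1 := by
  classical
  have : LinearMap.ker M.mulVecLin ≤ Submodule.span ℚ {(fun _ => 1 : ι → ℚ)} := by
    intro z hz
    rw [LinearMap.mem_ker, Matrix.mulVecLin_apply] at hz
    have hc := h z hz
    rw [Submodule.mem_span_singleton]
    by_cases hι : Nonempty ι
    · obtain ⟨i⟩ := hι
      refine ⟨z i, ?_⟩
      funext j
      simp [hc j i]
    · refine ⟨0, ?_⟩
      funext j
      exact absurd ⟨j⟩ hι
  calc _ ≤ Module.finrank ℚ
        (Submodule.span ℚ {(fun _ => 1 : ι → ℚ)}) := Submodule.finrank_mono this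
    _ ≤ 1 := by
      have := finrank_span_le_card (R := ℚ) ({(fun _ => 1 : ι → ℚ)} : Set (ι → ℚ))
      simpa using this

theorem card_le_rank_add_one {ι κ : Type*} [Fintype ι] [Fintype κ]
    (M : Matrix κ ι ℚ) (h : ∀ z : ι → ℚ, M.mulVec z = 0 → ∀ f g, z f = z g) :
    Fintype.card ι ≤ M.rank + 1 := by
  have h1 := LinearMap.finrank_range_add_finrank_ker M.mulVecLin
  have h2 := finrank_ker_le_one M h
  rw [Module.finrank_fintype_fun_eq_card] at h1
  unfold Matrix.rank
  omega

section Mats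

set_option linter.unusedSectionVars false

variable {B W V : Type} [Fintype B] [Fintype W] [Fintype V] [DecidableEq B] [DecidableEq W]
  [DecidableEq V] (M : PMap B W V)

/-- The matrix of the boundary map from functions on the white triangles to corners. -/
def dMat : Matrix (B × Fin 3) W ℚ := fun p w =>
  (if M.e (p.2 + 1) p.1 = w then 1 else 0) - (if M.e (p.2 + 2) p.1 = w then 1 else 0)

/-- The matrix of the boundary map from corners to the vertices of J. -/
def bMat : Matrix (B ⊕ V) (B × Fin 3) ℚ := fun q p =>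
  match q with
  | Sum.inl b => if p.1 = b then -1 else 0
  | Sum.inr v => if M.c p.2 p.1 = v then 1 else 0

theorem dMat_mulVec (n : W → ℚ) (p : B × Fin 3) :
    (dMat M).mulVec n p = n (M.e (p.2 + 1) p.1) - n (M.e (p.2 + 2) p.1) := by
  unfold dMat Matrix.mulVec dotProduct
  simp [sub_mul, Finset.sum_sub_distrib]

theorem bMat_inl (x : B × Fin 3 → ℚ) (b : B) :
    (bMat M).mulVec x (Sum.inl b) = -∑ j, x (b, j) := by
  unfold bMat Matrix.mulVec dotProduct
  simp only [ite_mul, zero_mul, neg_mul, one_mul]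
  rw [Fintype.sum_prod_type, Finset.sum_comm, ← Finset.sum_neg_distrib]
  refine Finset.sum_congr rfl fun j _ => ?_
  simp

theorem bMat_inr (x : B × Fin 3 → ℚ) (v : V) :
    (bMat M).mulVec x (Sum.inr v) = ∑ j, ∑ b, if M.c j b = v then x (b, j) else 0 := by
  unfold bMat Matrix.mulVec dotProduct
  simp only [ite_mul, zero_mul, one_mul]
  rw [Fintype.sum_prod_type, Finset.sum_comm]

theorem bMat_transpose (y : B ⊕ V → ℚ) (p : B × Fin 3) :
    (bMat M)ᵀ.mulVec y p = y (Sum.inr (M.c p.2 p.1)) - y (Sum.inl p.1) := by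
  unfold Matrix.mulVec dotProduct
  rw [Fintype.sum_sum_type]
  simp only [Matrix.transpose_apply, bMat, ite_mul, zero_mul, one_mul, neg_mul]
  simp
  ring

theorem bMat_dMat (n : W → ℚ) : (bMat M).mulVec ((dMat M).mulVec n) = 0 := by
  funext q
  rcases q with b | v
  · rw [bMat_inl]
    simp only [dMat_mulVec, Fin.sum_univ_three, Pi.zero_apply]
    have h0 : (0 : Fin 3) + 1 = 1 := rfl
    have h1 : (1 : Fin 3) + 1 = 2 := rfl
    have h2 : (2 : Fin 3) + 1 = 0 := rfl
    have h3 : (0 : Fin 3) + 2 = 2 := rfl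
    have h4 : (1 : Fin 3) + 2 = 0 := rfl
    have h5 : (2 : Fin 3) + 2 = 1 := rfl
    simp only [h0, h1, h2, h3, h4, h5]
    ring
  · rw [bMat_inr, Pi.zero_apply]
    refine Finset.sum_eq_zero fun j _ => ?_
    simp only [dMat_mulVec]
    have key : ∑ b, (if M.c j b = v then n (M.e (j + 1) b) else 0) =
        ∑ b, (if M.c j b = v then n (M.e (j + 2) b) else 0) := by
      rw [← Equiv.sum_comp (M.rho j)]
      refine Finset.sum_congr rfl fun b _ => ?_
      rw [M.c_rho, M.e_rho]
    have : ∀ b, (if M.c j b = v then n (M.e (j + 1) b) - n (M.e (j + 2) b) else 0) =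
        (if M.c j b = v then n (M.e (j + 1) b) else 0) -
          (if M.c j b = v then n (M.e (j + 2) b) else 0) := by
      intro b; split_ifs <;> simp
    simp only [this, Finset.sum_sub_distrib, key, sub_self]

variable {M}

theorem const_dMat (hC : M.Conn) (n : W → ℚ) (hn : (dMat M).mulVec n = 0) (w w' : W) :
    n w = n w' := by
  have h1 : ∀ b j, n (M.e (j + 1) b) = n (M.e (j + 2) b) := by
    intro b j
    have := congrFun hn (b, j)
    rw [dMat_mulVec, Pi.zero_apply] at this
    linarith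
  have h2 : ∀ b i j, n (M.e i b) = n (M.e j b) := by
    intro b i j
    have a0 := h1 b 0
    have a1 := h1 b 1
    have a2 := h1 b 2
    have e1 : (0 : Fin 3) + 1 = 1 := rfl
    have e2 : (1 : Fin 3) + 1 = 2 := rfl
    have e3 : (2 : Fin 3) + 1 = 0 := rfl
    have e4 : (0 : Fin 3) + 2 = 2 := rfl
    have e5 : (1 : Fin 3) + 2 = 0 := rfl
    have e6 : (2 : Fin 3) + 2 = 1 := rfl
    rw [e1, e4] at a0
    rw [e2, e5] at a1
    rw [e3, e6] at a2
    fin_cases i <;> fin_cases j <;> simp_all
  have h3 : ∀ b j, n (M.e 0 (M.rho j b)) = n (M.e 0 b) := by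
    intro b j
    rw [h2 _ 0 (j + 1), M.e_rho, h2 _ (j + 2) 0]
  have h4 : ∀ j (k : ℕ) b, n (M.e 0 ((M.rho j ^ k) b)) = n (M.e 0 b) := by
    intro j k b
    induction k with
    | zero => rfl
    | succ k ih => rw [pow_succ', Equiv.Perm.mul_apply, h3, ih]
  have h5 : ∀ b b' : B, n (M.e 0 b) = n (M.e 0 b') := by
    intro b b'
    have h := hC b b'
    induction h with
    | rel x y hxy =>
      obtain ⟨j, hj⟩ := hxy
      obtain ⟨k, hk⟩ := (M.same_iff j x y).1 hj
      rw [← hk, h4]
    | refl x => rfl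
    | symm x y _ ih => exact ih.symm
    | trans x y z _ _ ih1 ih2 => exact ih1.trans ih2
  have := h5 ((M.e 0).symm w) ((M.e 0).symm w')
  simpa using this

theorem const_bMat (hC : M.Conn) (y : B ⊕ V → ℚ) (hy : (bMat M)ᵀ.mulVec y = 0) (q q' : B ⊕ V) :
    y q = y q' := by
  have h1 : ∀ b j, y (Sum.inr (M.c j b)) = y (Sum.inl b) := by
    intro b j
    have := congrFun hy (b, j)
    rw [bMat_transpose, Pi.zero_apply] at this
    linarith
  have h2 : ∀ b b' : B, y (Sum.inl b) = y (Sum.inl b') := by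
    intro b b'
    have h := hC b b'
    induction h with
    | rel x y' hxy =>
      obtain ⟨j, hj⟩ := hxy
      rw [← h1 x j, hj, h1]
    | refl x => rfl
    | symm x y _ ih => exact ih.symm
    | trans x y z _ _ ih1 ih2 => exact ih1.trans ih2
  have h3 : ∀ q : B ⊕ V, ∃ b, y q = y (Sum.inl b) := by
    intro q
    rcases q with b | v
    · exact ⟨b, rfl⟩
    · obtain ⟨j, b, rfl⟩ := M.surj v
      exact ⟨b, h1 b j⟩
  obtain ⟨b, hb⟩ := h3 q
  obtain ⟨b', hb'⟩ := h3 q'
  rw [hb, hb', h2 b b']

/-- The 1-cycles of J. -/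
abbrev ZZ (M : PMap B W V) : Submodule ℚ (B × Fin 3 → ℚ) := LinearMap.ker (bMat M).mulVecLin

theorem range_le (M : PMap B W V) : LinearMap.range (dMat M).mulVecLin ≤ ZZ M := by
  rintro _ ⟨n, rfl⟩
  rw [LinearMap.mem_ker]
  exact bMat_dMat M n

theorem finrank_ZZ_le (hS : M.Sph) : Module.finrank ℚ (ZZ M) + 1 ≤ Fintype.card W := by
  have h1 := card_le_rank_add_one (bMat M)ᵀ (const_bMat hS.conn)
  rw [Matrix.rank_transpose] at h1
  have h3 := LinearMap.finrank_range_add_finrank_ker (bMat M).mulVecLin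
  rw [Module.finrank_fintype_fun_eq_card] at h3
  have hc := hS.card
  have hBW : Fintype.card B = Fintype.card W := Fintype.card_congr (M.e 0)
  simp only [Fintype.card_sum, Fintype.card_prod, Fintype.card_fin] at h1 h3
  unfold Matrix.rank at h1
  change _ + Module.finrank ℚ (ZZ M) = _ at h3
  omega

theorem ZZ_eq (hS : M.Sph) : LinearMap.range (dMat M).mulVecLin = ZZ M := by
  have h2 := card_le_rank_add_one (dMat M) (const_dMat hS.conn)
  have h3 := finrank_ZZ_le hS
  unfold Matrix.rank at h2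
  exact Submodule.eq_of_le_of_finrank_le (range_le M) (by omega)

end Mats

end Vale.Agent.P039.Bn.H265
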