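import Vale.Agent.P039.Bn.L2.Defs
import Vale.Agent.P039.Bn.H265.Chain

/-! The Euler relation for the closed region on one side of an alternating cycle, by a dimension
count in the cycle space of J (no connectivity of the region is needed). -/

namespace Vale.Agent.P039.Bn.H265

open Vale.Agent.P039.Bn Matrix

set_option linter.unusedSectionVars false

variable {B W V : Type} [Fintype B] [Fintype W] [Fintype V] [DecidableEq B] [DecidableEq W]
  [DecidableEq V]

/-- The 1-cycles of J supported in `E`. -/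
def ZE (M : PMap B W V) (E : Finset (B × Fin 3)) : Submodule ℚ (B × Fin 3 → ℚ) :=
  ZZ M ⊓ { carrier := {x | ∀ p, p ∉ E → x p = 0}
           add_mem' := by
             intro a b ha hb p hp
             rw [Pi.add_apply, ha p hp, hb p hp, add_zero]
           zero_mem' := fun p _ => rfl
           smul_mem' := by
             intro c a ha p hp
             rw [Pi.smul_apply, ha p hp, smul_zero] }

theorem mem_ZE {M : PMap B W V} {E : Finset (B × Fin 3)} {x : B × Fin 3 → ℚ} :
    x ∈ ZE M E ↔ (bMat M).mulVec x = 0 ∧ ∀ p, p ∉ E → x p = 0 := by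
  unfold ZE
  rw [Submodule.mem_inf, LinearMap.mem_ker, Matrix.mulVecLin_apply]
  rfl

/-- The vertices of J touched by the corners in `E`. -/
def touch (M : PMap B W V) (E : Finset (B × Fin 3)) : Finset (B ⊕ V) :=
  E.image (fun p => Sum.inl p.1) ∪ E.image (fun p => Sum.inr (M.c p.2 p.1))

theorem inl_mem_touch {M : PMap B W V} {E : Finset (B × Fin 3)} {b : B} :
    Sum.inl b ∈ touch M E ↔ ∃ j, (b, j) ∈ E := by
  unfold touch
  simp only [Finset.mem_union, Finset.mem_image, Prod.exists]
  constructor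
  · rintro (⟨a, j, h, h2⟩ | ⟨a, j, h, h2⟩)
    · cases h2; exact ⟨j, h⟩
    · cases h2
  · rintro ⟨j, h⟩
    exact Or.inl ⟨b, j, h, rfl⟩

theorem inr_mem_touch {M : PMap B W V} {E : Finset (B × Fin 3)} {v : V} :
    Sum.inr v ∈ touch M E ↔ ∃ b j, (b, j) ∈ E ∧ M.c j b = v := by
  unfold touch
  simp only [Finset.mem_union, Finset.mem_image, Prod.exists]
  constructor
  · rintro (⟨a, j, h, h2⟩ | ⟨a, j, h, h2⟩)
    · cases h2
    · cases h2; exact ⟨a, j, h, rfl⟩
  · rintro ⟨b, j, h, h2⟩
    exact Or.inr ⟨b, j, h, by rw [h2]⟩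

/-- extension by zero -/
def ext0 (E : Finset (B × Fin 3)) : (E → ℚ) →ₗ[ℚ] (B × Fin 3 → ℚ) where
  toFun x p := if h : p ∈ E then x ⟨p, h⟩ else 0
  map_add' x y := by funext p; by_cases h : p ∈ E <;> simp [h]
  map_smul' a x := by funext p; by_cases h : p ∈ E <;> simp [h]

theorem ext0_apply (E : Finset (B × Fin 3)) (x : E → ℚ) (p : B × Fin 3) :
    ext0 E x p = if h : p ∈ E then x ⟨p, h⟩ else 0 := rfl

theorem ext0_inj (E : Finset (B × Fin 3)) : Function.Injective (ext0 E) := by
  intro x y h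
  funext p
  have := congrFun h p.1
  rw [ext0_apply, ext0_apply, dif_pos p.2, dif_pos p.2] at this
  exact this

/-- the incidence matrix restricted to `E` -/
def rMat (M : PMap B W V) (E : Finset (B × Fin 3)) : Matrix (touch M E) E ℚ :=
  fun q p => bMat M q.1 p.1

theorem bMat_ext0 (M : PMap B W V) (E : Finset (B × Fin 3)) (x : E → ℚ)
    (hx : (rMat M E).mulVec x = 0) : (bMat M).mulVec (ext0 E x) = 0 := by
  funext q
  have h1 : (bMat M).mulVec (ext0 E x) q = ∑ p : E, bMat M q p.1 * x p := by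
    have h2 : ∀ p, p ∉ E → bMat M q p * ext0 E x p = 0 := by
      intro p hp
      rw [ext0_apply, dif_neg hp, mul_zero]
    have h3 : ∑ p ∈ E, bMat M q p * ext0 E x p = ∑ p, bMat M q p * ext0 E x p :=
      Finset.sum_subset (Finset.subset_univ E) fun p _ hp => h2 p hp
    have h4 : ∑ p : E, bMat M q p.1 * ext0 E x p.1 = ∑ p ∈ E, bMat M q p * ext0 E x p :=
      Finset.sum_coe_sort E (fun p => bMat M q p * ext0 E x p)
    have h5 : ∑ p : E, bMat M q p.1 * ext0 E x p.1 = ∑ p : E, bMat M q p.1 * x p := by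
      refine Finset.sum_congr rfl fun p _ => ?_
      rw [ext0_apply, dif_pos p.2]
    rw [← h5, h4, h3]
    rfl
  rw [h1]
  by_cases hq : q ∈ touch M E
  · exact congrFun hx ⟨q, hq⟩
  · rw [Pi.zero_apply]
    refine Finset.sum_eq_zero fun p _ => ?_
    have : bMat M q p.1 = 0 := by
      rcases q with b | v
      · unfold bMat
        refine if_neg ?_
        rintro rfl
        exact hq (inl_mem_touch.2 ⟨p.1.2, p.2⟩)
      · unfold bMat
        refine if_neg ?_
        rintro rfl
        exact hq (inr_mem_touch.2 ⟨p.1.1, p.1.2, p.2, rfl⟩)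
    rw [this, zero_mul]

/-- Lemma A: the lower bound for the dimension. -/
theorem card_le_finrank_ZE (M : PMap B W V) (E : Finset (B × Fin 3)) (hE : E.Nonempty) :
    E.card + 1 ≤ Module.finrank ℚ (ZE M E) + (touch M E).card := by
  have hne : Nonempty (touch M E) := by
    obtain ⟨p, hp⟩ := hE
    exact ⟨⟨Sum.inl p.1, inl_mem_touch.2 ⟨p.2, hp⟩⟩⟩
  -- the transpose has a constant vector in its kernel
  have h1 : (rMat M E)ᵀ.mulVec (fun _ => 1) = 0 := by
    funext p
    have h2 : (rMat M E)ᵀ.mulVec (fun _ => 1) p = ∑ q : touch M E, bMat M q.1 p.1 := by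
      unfold Matrix.mulVec dotProduct
      refine Finset.sum_congr rfl fun q _ => ?_
      rw [mul_one]
      rfl
    have h3 : ∑ q : touch M E, bMat M q.1 p.1 = ∑ q ∈ touch M E, bMat M q p.1 :=
      Finset.sum_coe_sort (touch M E) (fun q => bMat M q p.1)
    have h4 : ∑ q ∈ touch M E, bMat M q p.1 = ∑ q, bMat M q p.1 := by
      refine Finset.sum_subset (Finset.subset_univ _) fun q _ hq => ?_
      rcases q with b | v
      · unfold bMat
        refine if_neg ?_
        rintro rfl
        exact hq (inl_mem_touch.2 ⟨p.1.2, p.2⟩)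
      · unfold bMat
        refine if_neg ?_
        rintro rfl
        exact hq (inr_mem_touch.2 ⟨p.1.1, p.1.2, p.2, rfl⟩)
    rw [h2, h3, h4, Fintype.sum_sum_type]
    unfold bMat
    simp
  have h5 : 1 ≤ Module.finrank ℚ (LinearMap.ker (rMat M E)ᵀ.mulVecLin) := by
    have : (fun _ => 1 : touch M E → ℚ) ∈ LinearMap.ker (rMat M E)ᵀ.mulVecLin := by
      rw [LinearMap.mem_ker, Matrix.mulVecLin_apply]; exact h1
    have hnz : (⟨_, this⟩ : LinearMap.ker (rMat M E)ᵀ.mulVecLin) ≠ 0 := by
      intro h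
      have := congrArg (fun z : LinearMap.ker (rMat M E)ᵀ.mulVecLin => z.1 hne.some) h
      simp at this
    have : Nontrivial (LinearMap.ker (rMat M E)ᵀ.mulVecLin) := ⟨⟨_, _, hnz⟩⟩
    exact Module.finrank_pos
  have h6 := LinearMap.finrank_range_add_finrank_ker (rMat M E)ᵀ.mulVecLin
  have h7 := LinearMap.finrank_range_add_finrank_ker (rMat M E).mulVecLin
  rw [Module.finrank_fintype_fun_eq_card] at h6 h7
  have h8 : (rMat M E)ᵀ.rank = (rMat M E).rank := Matrix.rank_transpose _
  unfold Matrix.rank at h8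
  have h9 : Module.finrank ℚ (LinearMap.ker (rMat M E).mulVecLin) ≤
      Module.finrank ℚ (ZE M E) := by
    have hmap : ∀ x : LinearMap.ker (rMat M E).mulVecLin, ext0 E x.1 ∈ ZE M E := by
      intro x
      rw [mem_ZE]
      refine ⟨bMat_ext0 M E x.1 x.2, fun p hp => ?_⟩
      rw [ext0_apply, dif_neg hp]
    let φ : LinearMap.ker (rMat M E).mulVecLin →ₗ[ℚ] ZE M E :=
      ((ext0 E).domRestrict _).codRestrict (ZE M E) hmap
    refine LinearMap.finrank_le_finrank_of_injective (f := φ) ?_
    intro x y hxy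
    have := congrArg Subtype.val hxy
    exact Subtype.ext (ext0_inj E this)
  simp only [Fintype.card_coe] at h6 h7
  omega

/-- extension by zero of a function on a set of whites -/
def extW (I : Finset W) : (I → ℚ) →ₗ[ℚ] (W → ℚ) where
  toFun x w := if h : w ∈ I then x ⟨w, h⟩ else 0
  map_add' x y := by funext w; by_cases h : w ∈ I <;> simp [h]
  map_smul' a x := by funext w; by_cases h : w ∈ I <;> simp [h]

theorem extW_apply (I : Finset W) (x : I → ℚ) (w : W) :
    extW I x w = if h : w ∈ I then x ⟨w, h⟩ else 0 := rfl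

/-- Lemma B: the boundaries of the whites in `I`. -/
theorem card_le_finrank_ZE' (M : PMap B W V) (hC : M.Conn) (I : Finset W) (w0 : W) (hw0 : w0 ∉ I)
    (E : Finset (B × Fin 3))
    (hE : ∀ b j, M.e (j + 1) b ∈ I ∨ M.e (j + 2) b ∈ I → (b, j) ∈ E) :
    I.card ≤ Module.finrank ℚ (ZE M E) := by
  have hmap : ∀ x : I → ℚ, ((dMat M).mulVecLin ∘ₗ extW I) x ∈ ZE M E := by
    intro x
    rw [mem_ZE]
    refine ⟨bMat_dMat M _, fun p hp => ?_⟩
    rw [LinearMap.comp_apply, Matrix.mulVecLin_apply, dMat_mulVec, extW_apply, extW_apply,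
      dif_neg, dif_neg, sub_zero]
    · exact fun h => hp (hE p.1 p.2 (Or.inr h))
    · exact fun h => hp (hE p.1 p.2 (Or.inl h))
  let φ : (I → ℚ) →ₗ[ℚ] ZE M E := ((dMat M).mulVecLin ∘ₗ extW I).codRestrict (ZE M E) hmap
  have hinj : Function.Injective φ := by
    rw [injective_iff_map_eq_zero]
    intro x hx
    have h1 : (dMat M).mulVec (extW I x) = 0 := congrArg Subtype.val hx
    have h2 := const_dMat hC _ h1
    funext w
    have h3 := h2 w.1 w0
    rw [extW_apply, extW_apply, dif_pos w.2, dif_neg hw0] at h3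
    exact h3
  have := LinearMap.finrank_le_finrank_of_injective hinj
  rwa [Module.finrank_fintype_fun_eq_card, Fintype.card_coe] at this

end Vale.Agent.P039.Bn.H265
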