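import Vale.Agent.P039.Bn.H265.Euler

/-! STEP 2: the number of blacks of an alternating cycle is 3 + 2 (third corners inside). -/

namespace Vale.Agent.P039.Bn.H265

open Vale.Agent.P039.Bn Matrix

set_option linter.unusedSectionVars false

variable {B W V : Type} [Fintype B] [Fintype W] [Fintype V] [DecidableEq B] [DecidableEq W]
  [DecidableEq V]

/-- the corners of an alternating cycle -/
def cornersOf (f g : B → Fin 3) (S : Finset B) : Finset (B × Fin 3) :=
  S.image (fun b => (b, f b)) ∪ S.image (fun b => (b, g b))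

theorem mem_cornersOf {f g : B → Fin 3} {S : Finset B} {b : B} {j : Fin 3} :
    (b, j) ∈ cornersOf f g S ↔ b ∈ S ∧ (j = f b ∨ j = g b) := by
  unfold cornersOf
  simp only [Finset.mem_union, Finset.mem_image, Prod.mk.injEq]
  constructor
  · rintro (⟨a, ha, rfl, rfl⟩ | ⟨a, ha, rfl, rfl⟩)
    · exact ⟨ha, Or.inl rfl⟩
    · exact ⟨ha, Or.inr rfl⟩
  · rintro ⟨hb, rfl | rfl⟩
    · exact Or.inl ⟨b, hb, rfl, rfl⟩
    · exact Or.inr ⟨b, hb, rfl, rfl⟩

theorem card_cornersOf {f g : B → Fin 3} {S : Finset B} (h : ∀ b ∈ S, f b ≠ g b) :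
    (cornersOf f g S).card = 2 * S.card := by
  unfold cornersOf
  rw [Finset.card_union_of_disjoint, Finset.card_image_of_injective, Finset.card_image_of_injective]
  · ring
  · intro a b hab; exact (Prod.mk.inj hab).1
  · intro a b hab; exact (Prod.mk.inj hab).1
  · rw [Finset.disjoint_left]
    rintro ⟨b, j⟩ h1 h2
    simp only [Finset.mem_image, Prod.mk.injEq] at h1 h2
    obtain ⟨a, ha, rfl, rfl⟩ := h1
    obtain ⟨a', ha', rfl, h3⟩ := h2
    exact h _ ha h3.symm

variable {M : PMap B W V}

theorem bMat_inr' (M : PMap B W V) (x : B × Fin 3 → ℚ) (v : V) :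
    (bMat M).mulVec x (Sum.inr v) = ∑ p, if M.c p.2 p.1 = v then x p else 0 := by
  unfold bMat Matrix.mulVec dotProduct
  simp only [ite_mul, zero_mul, one_mul]

/-- Lemma C, first part: a cycle supported on an alternating cycle is a multiple of it. -/
theorem const_of_mem {f g : B → Fin 3} {S : Finset B} {nx : B → B} (hA : M.IsAlt f g S nx)
    (x : B × Fin 3 → ℚ) (hx : x ∈ ZE M (cornersOf f g S)) :
    (∀ b ∈ S, x (b, g b) = -x (b, f b)) ∧ ∀ b ∈ S, ∀ b' ∈ S, x (b, f b) = x (b', f b') := by
  rw [mem_ZE] at hx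
  obtain ⟨h1, h2⟩ := hx
  have h3 : ∀ b ∈ S, x (b, g b) = -x (b, f b) := by
    intro b hb
    have h4 := congrFun h1 (Sum.inl b)
    rw [bMat_inl, Pi.zero_apply, neg_eq_zero] at h4
    rw [Finset.sum_eq_add (f b) (g b) (hA.ne b hb)] at h4
    · linarith
    · intro j _ hj
      apply h2
      rw [mem_cornersOf]
      rintro ⟨_, h | h⟩
      · exact hj.1 h
      · exact hj.2 h
    · intro h; exact absurd (Finset.mem_univ _) h
    · intro h; exact absurd (Finset.mem_univ _) h
  have h4 : ∀ b ∈ S, x (b, f b) = x (nx b, f (nx b)) := by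
    intro b hb
    have h5 := congrFun h1 (Sum.inr (M.c (f b) b))
    rw [bMat_inr', Pi.zero_apply] at h5
    rw [Finset.sum_eq_add (b, f b) (nx b, g (nx b))] at h5
    · rw [if_pos rfl, if_pos (hA.face b hb).symm, h3 _ (hA.maps b hb)] at h5
      linarith
    · intro h
      have e1 := (Prod.mk.inj h).1
      have e2 := (Prod.mk.inj h).2
      rw [← e1] at e2
      exact hA.ne b hb e2
    · rintro ⟨a, j⟩ _ hj
      by_cases hc : M.c j a = M.c (f b) b
      · rw [if_pos hc]
        apply h2
        rw [mem_cornersOf]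
        rintro ⟨ha, rfl | rfl⟩
        · rw [hA.face a ha, hA.face b hb] at hc
          have := hA.nxinj _ ha _ hb (hA.inj _ (hA.maps a ha) _ (hA.maps b hb) hc)
          subst this
          exact hj.1 rfl
        · rw [hA.face b hb] at hc
          have := hA.inj _ ha _ (hA.maps b hb) hc
          subst this
          exact hj.2 rfl
      · rw [if_neg hc]
    · intro h; exact absurd (Finset.mem_univ _) h
    · intro h; exact absurd (Finset.mem_univ _) h
  refine ⟨h3, fun b hb b' hb' => ?_⟩
  have h5 := hA.single {a | x (a, f a) = x (b, f b)} ⟨b, hb, rfl⟩ (fun a ha h => by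
    rw [Set.mem_setOf_eq] at h ⊢
    rw [← h4 a ha, h]) b' hb'
  exact h5.symm

/-- Lemma C: the upper bound. -/
theorem finrank_add_le (hS : M.Sph) {f g : B → Fin 3} {S : Finset B} {nx : B → B}
    (hA : M.IsAlt f g S nx) (E1 E2 : Finset (B × Fin 3)) (hE : E1 ∩ E2 ⊆ cornersOf f g S) :
    Module.finrank ℚ (ZE M E1) + Module.finrank ℚ (ZE M E2) ≤ Fintype.card W := by
  have h1 := Submodule.finrank_sup_add_finrank_inf_eq (ZE M E1) (ZE M E2)
  have h2 : ZE M E1 ⊔ ZE M E2 ≤ ZZ M := sup_le inf_le_left inf_le_left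
  have h3 := Submodule.finrank_mono h2
  have h4 := finrank_ZZ_le hS
  have h5 : Module.finrank ℚ (ZE M E1 ⊓ ZE M E2 : Submodule ℚ (B × Fin 3 → ℚ)) ≤ 1 := by
    have h6 : ZE M E1 ⊓ ZE M E2 ≤ Submodule.span ℚ
        {(fun p => if p.1 ∈ S then (if p.2 = f p.1 then 1 else 0) - (if p.2 = g p.1 then 1 else 0)
          else 0 : B × Fin 3 → ℚ)} := by
      intro x hx
      have hx1 : x ∈ ZE M (cornersOf f g S) := by
        rw [Submodule.mem_inf, mem_ZE, mem_ZE] at hx
        rw [mem_ZE]
        refine ⟨hx.1.1, fun p hp => ?_⟩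
        by_cases hp1 : p ∈ E1
        · by_cases hp2 : p ∈ E2
          · exact absurd (hE (Finset.mem_inter.2 ⟨hp1, hp2⟩)) hp
          · exact hx.2.2 p hp2
        · exact hx.1.2 p hp1
      obtain ⟨ha, hb⟩ := const_of_mem hA x hx1
      obtain ⟨b0, hb0⟩ := hA.nonempty
      rw [Submodule.mem_span_singleton]
      refine ⟨x (b0, f b0), ?_⟩
      funext p
      obtain ⟨b, j⟩ := p
      rw [Pi.smul_apply, smul_eq_mul]
      have hout := (mem_ZE.1 hx1).2 (b, j)
      rw [mem_cornersOf] at hout
      by_cases hbS : b ∈ S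
      · have hne := hA.ne b hbS
        simp only [hbS, if_true]
        by_cases h7 : j = f b
        · subst h7
          rw [if_pos rfl, if_neg hne, sub_zero, mul_one, hb b0 hb0 b hbS]
        · by_cases h8 : j = g b
          · subst h8
            rw [if_neg h7, if_pos rfl, zero_sub, mul_neg, mul_one, ha b hbS, hb b0 hb0 b hbS]
          · rw [if_neg h7, if_neg h8, sub_zero, mul_zero]
            refine (hout ?_).symm
            rintro ⟨_, h | h⟩
            · exact h7 h
            · exact h8 h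
      · simp only [hbS, if_false, mul_zero]
        exact (hout (fun h => hbS h.1)).symm
    refine (Submodule.finrank_mono h6).trans ?_
    have := finrank_span_le_card (R := ℚ) ({(fun p => if p.1 ∈ S then
      (if p.2 = f p.1 then 1 else 0) - (if p.2 = g p.1 then 1 else 0)
          else 0 : B × Fin 3 → ℚ)} : Set (B × Fin 3 → ℚ))
    simpa using this
  omega

end Vale.Agent.P039.Bn.H265
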