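import Vale.Agent.P039.Bn.H265.T2

/-! STEP 2: the counting. -/

namespace Vale.Agent.P039.Bn.H265

open Vale.Agent.P039.Bn Matrix

set_option linter.unusedSectionVars false

variable {B W V : Type} [Fintype B] [Fintype W] [Fintype V] [DecidableEq B] [DecidableEq W]
  [DecidableEq V] {M : PMap B W V}

/-- The two sides of an alternating cycle, in the form of memberships. -/
structure Sides (M : PMap B W V) (f g : B → Fin 3) (S : Finset B) (I : Finset W) : Prop where
  out : ∀ b, b ∉ S → ∀ i j, (M.e i b ∈ I ↔ M.e j b ∈ I)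
  fg : ∀ b ∈ S, (M.e (f b) b ∈ I ↔ M.e (g b) b ∈ I)
  third : ∀ b ∈ S, ∀ h, h ≠ f b → h ≠ g b → (M.e h b ∈ I ↔ M.e (f b) b ∉ I)

theorem sides_of {f g : B → Fin 3} {S : Finset B} {nx : B → B} (hA : M.IsAlt f g S nx)
    {s : ℚ} {I : Finset W} (hs : s = 1 ∨ s = -1)
    (hx : ∀ b j, PMap.cyc f g S b j =
        s * ((if M.e (j + 1) b ∈ I then 1 else 0) - (if M.e (j + 2) b ∈ I then 1 else 0))) :
    Sides M f g S I := by
  have hs0 : s ≠ 0 := by rcases hs with rfl | rfl <;> norm_num
  have key : ∀ b j, PMap.cyc f g S b j = 0 → (M.e (j + 1) b ∈ I ↔ M.e (j + 2) b ∈ I) := by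
    intro b j h
    rw [hx] at h
    have h1 := (mul_eq_zero.1 h).resolve_left hs0
    by_cases ha : M.e (j + 1) b ∈ I <;> by_cases hb : M.e (j + 2) b ∈ I <;> simp_all
  have key2 : ∀ b j, PMap.cyc f g S b j ≠ 0 → (M.e (j + 1) b ∈ I ↔ M.e (j + 2) b ∉ I) := by
    intro b j h
    rw [hx] at h
    by_cases ha : M.e (j + 1) b ∈ I <;> by_cases hb : M.e (j + 2) b ∈ I <;> simp_all
  refine ⟨?_, ?_, ?_⟩
  · intro b hb
    have h1 : ∀ j, (M.e (j + 1) b ∈ I ↔ M.e (j + 2) b ∈ I) := fun j => key b j (by
      unfold PMap.cyc; rw [if_neg hb])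
    have h2 : ∀ j : Fin 3, (M.e j b ∈ I ↔ M.e (j + 1) b ∈ I) := by
      intro j
      have := h1 (j + 2)
      rw [f21, f22] at this
      exact this
    intro i j
    rcases fcase i j with rfl | rfl | rfl
    · exact Iff.rfl
    · exact (h2 j).symm
    · exact ((h2 j).trans (h1 j)).symm
  · intro b hb
    obtain ⟨h, hf, hg⟩ := fthird (f b) (g b)
    have hz : PMap.cyc f g S b h = 0 := by
      unfold PMap.cyc; rw [if_pos hb, if_neg hf, if_neg hg, sub_zero]
    have h1 := key b h hz
    have hne := hA.ne b hb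
    rcases fcase (f b) h with h2 | h2 | h2
    · exact absurd h2.symm hf
    · rcases fcase (g b) h with h3 | h3 | h3
      · exact absurd h3.symm hg
      · exact absurd (h2.trans h3.symm) hne
      · rw [h2, h3]; exact h1
    · rcases fcase (g b) h with h3 | h3 | h3
      · exact absurd h3.symm hg
      · rw [h2, h3]; exact h1.symm
      · exact absurd (h2.trans h3.symm) hne
  · intro b hb h hf hg
    have hne := hA.ne b hb
    have hz : PMap.cyc f g S b (g b) ≠ 0 := by
      unfold PMap.cyc; rw [if_pos hb, if_neg hne.symm, if_pos rfl]; norm_num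
    have h1 := key2 b (g b) hz
    rcases fcase (f b) (g b) with h2 | h2 | h2
    · exact absurd h2 hne
    · rcases fcase h (g b) with h3 | h3 | h3
      · exact absurd h3 hg
      · exact absurd (h3.trans h2.symm) hf
      · rw [h2, h3]; rw [h1, not_not]
    · rcases fcase h (g b) with h3 | h3 | h3
      · exact absurd h3 hg
      · rw [h2, h3]; exact h1
      · exact absurd (h3.trans h2.symm) hf

/-- Around a face which is not on the cycle all whites are on the same side. -/
theorem around {f g : B → Fin 3} {S : Finset B} {nx : B → B} (hA : M.IsAlt f g S nx)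
    {I : Finset W} (hI : Sides M f g S I) (v : V) (hv : ∀ b ∈ S, M.c (g b) b ≠ v)
    (b b' : B) (j j' i i' : Fin 3) (h1 : M.c j b = v) (h2 : M.c j' b' = v) (hi : i ≠ j)
    (hi' : i' ≠ j') : (M.e i b ∈ I ↔ M.e i' b' ∈ I) := by
  -- at one corner
  have one : ∀ b, M.c j b = v → (M.e (j + 1) b ∈ I ↔ M.e (j + 2) b ∈ I) := by
    intro b hb
    by_cases hbS : b ∈ S
    · have hg : j ≠ g b := by
        rintro rfl
        exact hv b hbS hb
      have hf : j ≠ f b := by
        rintro rfl
        rw [hA.face b hbS] at hb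
        exact hv _ (hA.maps b hbS) hb
      have hne := hA.ne b hbS
      have h3 := hI.fg b hbS
      rcases fcase (f b) j with h4 | h4 | h4
      · exact absurd h4.symm hf
      · rcases fcase (g b) j with h5 | h5 | h5
        · exact absurd h5.symm hg
        · exact absurd (h4.trans h5.symm) hne
        · rw [h4, h5] at h3; exact h3
      · rcases fcase (g b) j with h5 | h5 | h5
        · exact absurd h5.symm hg
        · rw [h4, h5] at h3; exact h3.symm
        · exact absurd (h4.trans h5.symm) hne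
    · exact hI.out b hbS _ _
  have two : ∀ b i, M.c j b = v → i ≠ j → (M.e i b ∈ I ↔ M.e (j + 1) b ∈ I) := by
    intro b i hb hi
    rcases fcase i j with rfl | rfl | rfl
    · exact absurd rfl hi
    · exact Iff.rfl
    · exact (one b hb).symm
  have hjj : j' = j := M.cls _ _ b' b (h2.trans h1.symm)
  subst hjj
  have three : ∀ (n : ℕ) b, M.c j' b = v →
      (M.e (j' + 1) ((M.rho j' ^ n) b) ∈ I ↔ M.e (j' + 1) b ∈ I) := by
    intro n b hb
    induction n with
    | zero => exact Iff.rfl
    | succ n ih =>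
      rw [pow_succ', Equiv.Perm.mul_apply, M.e_rho, ← one _ ?_, ih]
      rw [M.c_rho_pow, hb]
  obtain ⟨n, hn⟩ := (M.same_iff j' b b').1 (h1.trans h2.symm)
  rw [two b i h1 hi, two b' i' h2 hi', ← hn, three n b h1]

theorem inSg {f g : B → Fin 3} {S : Finset B} {nx : B → B} (hA : M.IsAlt f g S nx)
    {I : Finset W} (hI : Sides M f g S I) (b : B) (hb : b ∈ S) :
    (M.e (g b + 1) b ∈ I ↔ M.e (g b + 2) b ∉ I) := by
  have hne := hA.ne b hb
  rcases fcase (f b) (g b) with h2 | h2 | h2
  · exact absurd h2 hne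
  · rw [← h2]
    have := hI.third b hb (g b + 2) (by rw [h2]; exact fne21 _) (fne2 _)
    rw [this, not_not]
  · rw [← h2]
    exact hI.third b hb (g b + 1) (by rw [h2]; exact fne12 _) (fne1 _)

theorem inSf {f g : B → Fin 3} {S : Finset B} {nx : B → B} (hA : M.IsAlt f g S nx)
    {I : Finset W} (hI : Sides M f g S I) (b : B) (hb : b ∈ S) :
    (M.e (f b + 1) b ∈ I ↔ M.e (f b + 2) b ∉ I) := by
  have hne := hA.ne b hb
  have hfg := hI.fg b hb
  rcases fcase (g b) (f b) with h2 | h2 | h2
  · exact absurd h2.symm hne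
  · have := hI.third b hb (f b + 2) (fne2 _) (by rw [h2]; exact fne21 _)
    rw [this, not_not, ← h2, hfg]
  · have := hI.third b hb (f b + 1) (fne1 _) (by rw [h2]; exact fne12 _)
    rw [this, ← h2, hfg]

theorem inSh {f g : B → Fin 3} {S : Finset B} {nx : B → B} (hA : M.IsAlt f g S nx)
    {I : Finset W} (hI : Sides M f g S I) (b : B) (hb : b ∈ S) (h : Fin 3) (hf : h ≠ f b)
    (hgh : h ≠ g b) :
    (M.e (h + 1) b ∈ I ↔ M.e (f b) b ∈ I) ∧ (M.e (h + 2) b ∈ I ↔ M.e (f b) b ∈ I) := by
  have hne := hA.ne b hb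
  have hfg := hI.fg b hb
  rcases fcase (f b) h with h4 | h4 | h4
  · exact absurd h4.symm hf
  · rcases fcase (g b) h with h5 | h5 | h5
    · exact absurd h5.symm hgh
    · exact absurd (h4.trans h5.symm) hne
    · rw [← h4, ← h5]; exact ⟨Iff.rfl, hfg.symm⟩
  · rcases fcase (g b) h with h5 | h5 | h5
    · exact absurd h5.symm hgh
    · rw [← h4, ← h5]; exact ⟨hfg.symm, Iff.rfl⟩
    · exact absurd (h4.trans h5.symm) hne

/-- corners touching the inside -/
def EI (M : PMap B W V) (I : Finset W) : Finset (B × Fin 3) :=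
  Finset.univ.filter fun p => M.e (p.2 + 1) p.1 ∈ I ∨ M.e (p.2 + 2) p.1 ∈ I

/-- corners touching the outside -/
def EO (M : PMap B W V) (I : Finset W) : Finset (B × Fin 3) :=
  Finset.univ.filter fun p => M.e (p.2 + 1) p.1 ∉ I ∨ M.e (p.2 + 2) p.1 ∉ I

theorem mEI {I : Finset W} {b : B} {j : Fin 3} :
    (b, j) ∈ EI M I ↔ M.e (j + 1) b ∈ I ∨ M.e (j + 2) b ∈ I := by
  unfold EI; rw [Finset.mem_filter]; simp

theorem mEO {I : Finset W} {b : B} {j : Fin 3} :
    (b, j) ∈ EO M I ↔ M.e (j + 1) b ∉ I ∨ M.e (j + 2) b ∉ I := by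
  unfold EO; rw [Finset.mem_filter]; simp

theorem inter_eq {f g : B → Fin 3} {S : Finset B} {nx : B → B} (hA : M.IsAlt f g S nx)
    {I : Finset W} (hI : Sides M f g S I) : EI M I ∩ EO M I = cornersOf f g S := by
  ext ⟨b, j⟩
  rw [Finset.mem_inter, mEI, mEO, mem_cornersOf]
  constructor
  · rintro ⟨h1, h2⟩
    by_cases hbS : b ∈ S
    · refine ⟨hbS, ?_⟩
      by_contra hcon
      rw [not_or] at hcon
      have := inSh hA hI b hbS j hcon.1 hcon.2
      tauto
    · have a1 := hI.out b hbS (j + 1) (j + 2)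
      tauto
  · rintro ⟨hbS, rfl | rfl⟩
    · have := inSf hA hI b hbS
      tauto
    · have := inSg hA hI b hbS
      tauto

theorem touch_inter {f g : B → Fin 3} {S : Finset B} {nx : B → B} (hA : M.IsAlt f g S nx)
    {I : Finset W} (hI : Sides M f g S I) : touch M (EI M I) ∩ touch M (EO M I) ⊆
      S.image Sum.inl ∪ S.image (fun b => Sum.inr (M.c (g b) b)) := by
  intro q hq
  rw [Finset.mem_inter] at hq
  rcases q with b | v
  · rw [inl_mem_touch, inl_mem_touch] at hq
    obtain ⟨⟨j, hj⟩, ⟨j', hj'⟩⟩ := hq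
    rw [mEI] at hj
    rw [mEO] at hj'
    refine Finset.mem_union_left _ (Finset.mem_image_of_mem _ ?_)
    by_contra hbS
    have a1 := hI.out b hbS (j + 1) (j' + 1)
    have a2 := hI.out b hbS (j + 1) (j + 2)
    have a3 := hI.out b hbS (j' + 1) (j' + 2)
    tauto
  · rw [inr_mem_touch, inr_mem_touch] at hq
    obtain ⟨⟨b, j, hj, hv⟩, ⟨b', j', hj', hv'⟩⟩ := hq
    rw [mEI] at hj
    rw [mEO] at hj'
    refine Finset.mem_union_right _ ?_
    by_contra hcon
    have hnot : ∀ a ∈ S, M.c (g a) a ≠ v := by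
      intro a ha h
      exact hcon (Finset.mem_image.2 ⟨a, ha, by rw [h]⟩)
    have a1 := around hA hI v hnot b b' j j' (j + 1) (j' + 1) hv hv' (fne1 _) (fne1 _)
    have a2 := around hA hI v hnot b b j j (j + 1) (j + 2) hv hv (fne1 _) (fne2 _)
    have a3 := around hA hI v hnot b' b' j' j' (j' + 1) (j' + 2) hv' hv' (fne1 _) (fne2 _)
    tauto

/-- Euler relation for the closed inside. -/
theorem euler_side (hS : M.Sph) {f g : B → Fin 3} {S : Finset B} {nx : B → B}
    (hA : M.IsAlt f g S nx) {I : Finset W} (hI : Sides M f g S I) (w0 w1 : W) (hw0 : w0 ∉ I)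
    (hw1 : w1 ∈ I) : I.card + (touch M (EI M I)).card = (EI M I).card + 1 := by
  have hunion : EI M I ∪ EO M I = Finset.univ := by
    ext ⟨b, j⟩
    rw [Finset.mem_union, mEI, mEO]
    simp only [Finset.mem_univ, iff_true]
    tauto
  have hcardE := Finset.card_union_add_card_inter (EI M I) (EO M I)
  rw [hunion, inter_eq hA hI, card_cornersOf hA.ne, Finset.card_univ, Fintype.card_prod,
    Fintype.card_fin] at hcardE
  have hcardT := Finset.card_union_add_card_inter (touch M (EI M I)) (touch M (EO M I))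
  have hcT1 : (touch M (EI M I) ∩ touch M (EO M I)).card ≤ 2 * S.card := by
    refine (Finset.card_le_card (touch_inter hA hI)).trans ((Finset.card_union_le _ _).trans ?_)
    have h1 : (S.image (Sum.inl : B → B ⊕ V)).card ≤ S.card := Finset.card_image_le
    have h2 : (S.image (fun b => (Sum.inr (M.c (g b) b) : B ⊕ V))).card ≤ S.card :=
      Finset.card_image_le
    omega
  have hcT2 : (touch M (EI M I) ∪ touch M (EO M I)).card ≤ Fintype.card B + Fintype.card V := by
    refine (Finset.card_le_univ _).trans ?_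
    rw [Fintype.card_sum]
  obtain ⟨bS, hbS⟩ := hA.nonempty
  have hb := inSg hA hI bS hbS
  have hE1ne : (EI M I).Nonempty := ⟨(bS, g bS), by rw [mEI]; tauto⟩
  have hE2ne : (EO M I).Nonempty := ⟨(bS, g bS), by rw [mEO]; tauto⟩
  have d1 := card_le_finrank_ZE M (EI M I) hE1ne
  have d2 := card_le_finrank_ZE M (EO M I) hE2ne
  have d3 := finrank_add_le hS hA (EI M I) (EO M I) (inter_eq hA hI).le
  have d4 := card_le_finrank_ZE' M hS.conn I w0 hw0 (EI M I) (fun b j h => mEI.2 h)
  have d5 := card_le_finrank_ZE' M hS.conn Iᶜ w1 (by simpa using hw1) (EO M I) (fun b j h => by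
    rw [mEO]
    rw [Finset.mem_compl, Finset.mem_compl] at h
    exact h)
  rw [Finset.card_compl] at d5
  have hIle : I.card ≤ Fintype.card W := Finset.card_le_univ I
  have hBW : Fintype.card B = Fintype.card W := Fintype.card_congr (M.e 0)
  have hVB := hS.card
  omega

/-- the blacks touching the inside -/
def TI (M : PMap B W V) (I : Finset W) : Finset B := Finset.univ.filter fun b => ∃ j, M.e j b ∈ I

theorem mTI {I : Finset W} {b : B} : b ∈ TI M I ↔ ∃ j, M.e j b ∈ I := by
  unfold TI; rw [Finset.mem_filter]; simp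

theorem S_sub_TI {f g : B → Fin 3} {S : Finset B} {nx : B → B} (hA : M.IsAlt f g S nx)
    {I : Finset W} (hI : Sides M f g S I) : S ⊆ TI M I := by
  intro b hb
  rw [mTI]
  have := inSg hA hI b hb
  by_cases h : M.e (g b + 1) b ∈ I
  · exact ⟨_, h⟩
  · exact ⟨g b + 2, by tauto⟩

theorem gE {f g : B → Fin 3} {S : Finset B} {nx : B → B} (hA : M.IsAlt f g S nx)
    {I : Finset W} (hI : Sides M f g S I) (b : B) (hb : b ∈ TI M I) : (b, g b) ∈ EI M I := by
  rw [mEI]
  by_cases hbS : b ∈ S
  · have := inSg hA hI b hbS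
    tauto
  · obtain ⟨j, hj⟩ := mTI.1 hb
    exact Or.inl ((hI.out b hbS _ _).1 hj)

theorem touch_eq {f g : B → Fin 3} {S : Finset B} {nx : B → B} (hA : M.IsAlt f g S nx)
    {I : Finset W} (hI : Sides M f g S I) {b0 : B} (hg : M.IsMatch b0 g)
    (hI0 : ∀ j, M.e j b0 ∉ I) :
    touch M (EI M I) = (TI M I).image Sum.inl ∪
      (TI M I).image (fun b => Sum.inr (M.c (g b) b)) := by
  ext q
  rcases q with b | v
  · rw [inl_mem_touch]
    simp only [Finset.mem_union, Finset.mem_image, Sum.inl.injEq, exists_eq_right, reduceCtorEq,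
      and_false, exists_false, or_false]
    constructor
    · rintro ⟨j, hj⟩
      rw [mEI] at hj
      rw [mTI]
      rcases hj with h | h
      · exact ⟨_, h⟩
      · exact ⟨_, h⟩
    · intro hb
      exact ⟨_, gE hA hI b hb⟩
  · rw [inr_mem_touch]
    simp only [Finset.mem_union, Finset.mem_image, reduceCtorEq, and_false, exists_false,
      false_or, Sum.inr.injEq]
    constructor
    · rintro ⟨b, j, hj, hv⟩
      rw [mEI] at hj
      by_cases hcon : ∃ a ∈ S, M.c (g a) a = v
      · obtain ⟨a, ha, hav⟩ := hcon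
        exact ⟨a, S_sub_TI hA hI ha, hav⟩
      · have hnot : ∀ a ∈ S, M.c (g a) a ≠ v := fun a ha h => hcon ⟨a, ha, h⟩
        have hvR : ∀ i, M.c i b0 ≠ v := by
          intro i hi
          have a1 := around hA hI v hnot b b0 j i (j + 1) (i + 1) hv hi (fne1 _) (fne1 _)
          have a2 := around hA hI v hnot b b0 j i (j + 2) (i + 1) hv hi (fne2 _) (fne1 _)
          have a3 := hI0 (i + 1)
          tauto
        obtain ⟨b', hb', hv'⟩ := hg.surj v hvR
        refine ⟨b', ?_, hv'⟩
        rw [mTI]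
        have a1 := around hA hI v hnot b b' j (g b') (j + 1) (g b' + 1) hv hv' (fne1 _) (fne1 _)
        have a2 := around hA hI v hnot b b' j (g b') (j + 2) (g b' + 1) hv hv' (fne2 _) (fne1 _)
        exact ⟨g b' + 1, by tauto⟩
    · rintro ⟨b, hb, hv⟩
      exact ⟨b, g b, gE hA hI b hb, hv⟩

theorem card_touch {f g : B → Fin 3} {S : Finset B} {nx : B → B} (hA : M.IsAlt f g S nx)
    {I : Finset W} (hI : Sides M f g S I) {b0 : B} (hg : M.IsMatch b0 g)
    (hI0 : ∀ j, M.e j b0 ∉ I) : (touch M (EI M I)).card = 2 * (TI M I).card := by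
  have hb0T : b0 ∉ TI M I := by
    rw [mTI]; rintro ⟨j, hj⟩; exact hI0 j hj
  rw [touch_eq hA hI hg hI0, Finset.card_union_of_disjoint,
    Finset.card_image_of_injective _ Sum.inl_injective, Finset.card_image_of_injOn]
  · ring
  · intro a ha b hb hab
    have hab' : M.c (g a) a = M.c (g b) b := Sum.inr_injective hab
    refine hg.inj a b ?_ ?_ hab'
    · rintro rfl; exact hb0T ha
    · rintro rfl; exact hb0T hb
  · rw [Finset.disjoint_left]
    intro q h1 h2
    rw [Finset.mem_image] at h1 h2
    obtain ⟨a, _, rfl⟩ := h1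
    obtain ⟨b, _, h⟩ := h2
    cases h

/-- the fibre of `EI` over a black -/
theorem card_fib {f g : B → Fin 3} {S : Finset B} {nx : B → B} (hA : M.IsAlt f g S nx)
    {I : Finset W} (hI : Sides M f g S I) (b : B) :
    (Finset.univ.filter fun j => (b, j) ∈ EI M I).card +
      (if b ∈ S ∧ M.e (f b) b ∉ I then 1 else 0) = if b ∈ TI M I then 3 else 0 := by
  by_cases hbS : b ∈ S
  · rw [if_pos (S_sub_TI hA hI hbS)]
    by_cases hf : M.e (f b) b ∈ I
    · rw [if_neg (fun h => h.2 hf), add_zero, Finset.filter_true_of_mem]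
      · rfl
      · intro j _
        rw [mEI]
        by_cases h1 : j = f b
        · subst h1; have := inSf hA hI b hbS; tauto
        · by_cases h2 : j = g b
          · subst h2; have := inSg hA hI b hbS; tauto
          · exact Or.inl ((inSh hA hI b hbS j h1 h2).1.2 hf)
    · rw [if_pos ⟨hbS, hf⟩]
      have : (Finset.univ.filter fun j => (b, j) ∈ EI M I) = {f b, g b} := by
        ext j
        rw [Finset.mem_filter, mEI, Finset.mem_insert, Finset.mem_singleton]
        constructor
        · rintro ⟨_, h⟩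
          by_contra hcon
          rw [not_or] at hcon
          have := inSh hA hI b hbS j hcon.1 hcon.2
          tauto
        · rintro (rfl | rfl)
          · refine ⟨Finset.mem_univ _, ?_⟩
            have := inSf hA hI b hbS; tauto
          · refine ⟨Finset.mem_univ _, ?_⟩
            have := inSg hA hI b hbS; tauto
      rw [this, Finset.card_pair (hA.ne b hbS)]
  · rw [if_neg (fun h => hbS h.1), add_zero]
    by_cases hT : b ∈ TI M I
    · rw [if_pos hT, Finset.filter_true_of_mem]
      · rfl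
      · intro j _
        obtain ⟨i, hi⟩ := mTI.1 hT
        rw [mEI]
        exact Or.inl ((hI.out b hbS _ _).1 hi)
    · rw [if_neg hT, Finset.filter_false_of_mem]
      · rfl
      · intro j _ hj
        rw [mEI] at hj
        apply hT
        rw [mTI]
        rcases hj with h | h
        · exact ⟨_, h⟩
        · exact ⟨_, h⟩

theorem card_prod_filter (P : B × Fin 3 → Prop) [DecidablePred P] :
    (Finset.univ.filter P).card = ∑ b, (Finset.univ.filter fun j => P (b, j)).card := by
  simp only [Finset.card_filter]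
  rw [Fintype.sum_prod_type]

theorem card_EI {f g : B → Fin 3} {S : Finset B} {nx : B → B} (hA : M.IsAlt f g S nx)
    {I : Finset W} (hI : Sides M f g S I) :
    (EI M I).card + (S.filter fun b => M.e (f b) b ∉ I).card = 3 * (TI M I).card := by
  have h1 : (EI M I).card = ∑ b, (Finset.univ.filter fun j => (b, j) ∈ EI M I).card := by
    have := card_prod_filter (fun p : B × Fin 3 => p ∈ EI M I)
    rw [← this]
    congr 1
    ext p
    simp
  have h2 : (S.filter fun b => M.e (f b) b ∉ I).card =
      ∑ b, (if b ∈ S ∧ M.e (f b) b ∉ I then 1 else 0) := by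
    rw [← Finset.card_filter]
    congr 1
    ext b
    simp
  have h3 : 3 * (TI M I).card = ∑ b, if b ∈ TI M I then 3 else 0 := by
    rw [← Finset.sum_filter, Finset.sum_const, smul_eq_mul, mul_comm]
    congr 2
    ext b
    simp
  rw [h1, h2, h3, ← Finset.sum_add_distrib]
  exact Finset.sum_congr rfl fun b _ => card_fib hA hI b

theorem card_hex {f g : B → Fin 3} {S : Finset B} {nx : B → B} (hA : M.IsAlt f g S nx)
    {I : Finset W} (hI : Sides M f g S I) : 3 * I.card + S.card = (EI M I).card := by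
  -- each white has three corners of the first kind, and three of the second kind
  have k1 : ∀ t : Fin 3, (∑ p : B × Fin 3, if M.e (p.2 + t) p.1 ∈ I then 1 else 0) =
      3 * I.card := by
    intro t
    rw [Fintype.sum_prod_type, Finset.sum_comm]
    have h : ∀ j : Fin 3, (∑ b, if M.e (j + t) b ∈ I then 1 else 0) = I.card := by
      intro j
      rw [Equiv.sum_comp (M.e (j + t)) (fun w => if w ∈ I then 1 else 0)]
      simp
    simp only [h]
    simp
  have k2 : ∀ p : B × Fin 3, (if M.e (p.2 + 1) p.1 ∈ I then 1 else 0) +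
      (if M.e (p.2 + 2) p.1 ∈ I then 1 else 0) + (if p ∈ cornersOf f g S then 1 else 0) =
      2 * (if p ∈ EI M I then 1 else 0) := by
    rintro ⟨b, j⟩
    have hint : (b, j) ∈ cornersOf f g S ↔ (b, j) ∈ EI M I ∧ (b, j) ∈ EO M I := by
      rw [← inter_eq hA hI, Finset.mem_inter]
    rw [mEI, mEO] at hint
    have hE := mEI (M := M) (I := I) (b := b) (j := j)
    by_cases h1 : M.e (j + 1) b ∈ I <;> by_cases h2 : M.e (j + 2) b ∈ I <;> simp_all
  have k3 := Finset.sum_congr (rfl : (Finset.univ : Finset (B × Fin 3)) = Finset.univ)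
    fun p _ => k2 p
  rw [Finset.sum_add_distrib, Finset.sum_add_distrib, k1, k1, ← Finset.mul_sum] at k3
  have k4 : (∑ p : B × Fin 3, if p ∈ cornersOf f g S then 1 else 0) = 2 * S.card := by
    rw [← card_cornersOf hA.ne]; simp
  have k5 : (∑ p : B × Fin 3, if p ∈ EI M I then 1 else 0) = (EI M I).card := by simp
  rw [k4, k5] at k3
  omega

/-- STEP 2, with the number of inside whites. -/
theorem step2 (hS : M.Sph) {f g : B → Fin 3} {S : Finset B} {nx : B → B}
    (hA : M.IsAlt f g S nx) {I : Finset W} (hI : Sides M f g S I) {b0 : B} (hg : M.IsMatch b0 g)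
    (hI0 : ∀ j, M.e j b0 ∉ I) (hne : I.Nonempty) :
    S.card = 2 * (S.filter fun b => M.e (f b) b ∈ I).card + 3 ∧
      2 * I.card + 1 = 2 * ((TI M I).card - S.card) + S.card := by
  obtain ⟨w1, hw1⟩ := hne
  have h1 := euler_side hS hA hI (M.e 0 b0) w1 (hI0 0) hw1
  have h2 := card_touch hA hI hg hI0
  have h3 := card_EI hA hI
  have h4 := card_hex hA hI
  have h5 := Finset.card_le_card (S_sub_TI hA hI)
  have h6 : (S.filter fun b => M.e (f b) b ∈ I).card +
      (S.filter fun b => M.e (f b) b ∉ I).card = S.card :=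
    Finset.card_filter_add_card_filter_not _
  omega

theorem t2 : M.T2 := by
  intro hS f g S nx b0 hA _ hg s I hs hne hI0 hx
  exact (step2 hS hA (sides_of hA hs hx) hg hI0 hne).1

end Vale.Agent.P039.Bn.H265
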